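import Vale.Agent.P265.H388.Form
import Vale.Agent.P265.H936.LSForm

/-!
# The manifold `M` is symplectic
-/

open Vale.Agent.P265.Loc

set_option maxSynthPendingDepth 3

namespace Vale.Agent.P265.Dis

/-- The form `Om κ` restricts to a symplectic form on `M`. -/
theorem isSymplectic_Om {κ : ℝ} (hκ : κ ≠ 0) : IsSymplectic (RL.form (Om κ)) :=
  RL.isSymplectic_form (Om κ) (fun _ _ => (contDiff_Om κ).contDiffAt)
    (fun x _ v => Om_self κ x v) (fun _ hx _ hv h => Om_nondeg hκ hx hv h)
    (fun _ hx _ _ _ hu hv hw => Om_closed κ hx hu hv hw)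

end Vale.Agent.P265.Dis
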