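import Vale.Agent.P265.H388.Sym
import Mathlib.Analysis.Normed.Module.HahnBanach

/-!
# The symplectic form on the model: continuous bilinear version and final statements
-/

open Quaternion ComplexConjugate Module
open scoped ContDiff

set_option maxSynthPendingDepth 3

namespace Vale.Agent.P265.Dis

/-! ### Linearity -/

section Linear

variable (w : A) (a a' b : A) (r : ℝ)

theorem dfW_add : dfW w (a + a') = dfW w a + dfW w a' := by
  simp only [dfW, Prod.fst_add, Prod.snd_add]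
  ring

theorem dfW_smul : dfW w (r • a) = r * dfW w a := by
  simp only [dfW, Prod.smul_fst, Prod.smul_snd, Complex.real_smul]
  ring

theorem ddW_add : ddW w (a + a') = ddW w a + ddW w a' := by
  simp only [ddW, Prod.fst_add, Prod.snd_add]
  ring

theorem ddW_smul : ddW w (r • a) = r * ddW w a := by
  simp only [ddW, Prod.smul_fst, Prod.smul_snd, Complex.real_smul]
  ring

theorem ThW_add : ThW w (a + a') = ThW w a + ThW w a' := by
  simp only [ThW, Prod.fst_add, Prod.snd_add]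
  ring

theorem ThW_smul : ThW w (r • a) = r * ThW w a := by
  simp only [ThW, Prod.smul_fst, Prod.smul_snd, Complex.real_smul]
  ring

theorem alW_add : alW w (a + a') = alW w a + alW w a' := by
  simp only [alW, Prod.fst_add, mul_add, Complex.add_im]

theorem alW_smul : alW w (r • a) = r * alW w a := by
  simp only [alW, Prod.smul_fst, Complex.real_smul, Complex.mul_im, Complex.mul_re,
    Complex.ofReal_re, Complex.ofReal_im]
  ring

theorem thW_add : thW w (a + a') = thW w a + thW w a' := by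
  simp only [thW, dfW_add, mul_add, Complex.add_im]

theorem thW_smul : thW w (r • a) = r * thW w a := by
  simp only [thW, dfW_smul, Complex.mul_im, Complex.mul_re,
    Complex.ofReal_re, Complex.ofReal_im]
  ring

theorem deW_add : deW w (a + a') = deW w a + deW w a' := by
  simp only [deW, dfW_add, ddW_add, mul_add, Complex.add_im]
  ring

theorem deW_smul : deW w (r • a) = r * deW w a := by
  simp only [deW, dfW_smul, ddW_smul, Complex.mul_im, Complex.mul_re,
    Complex.ofReal_re, Complex.ofReal_im]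
  ring

theorem omW_swap : omW w a b = -omW w b a := by
  simp only [omW]
  ring

theorem omW_add_left : omW w (a + a') b = omW w a b + omW w a' b := by
  simp only [omW, alW_add, thW_add, deW_add, ThW_add, Complex.add_re, Complex.add_im,
    Prod.snd_add]
  ring

theorem omW_smul_left : omW w (r • a) b = r * omW w a b := by
  simp only [omW, alW_smul, thW_smul, deW_smul, ThW_smul, Complex.mul_re, Complex.mul_im,
    Complex.ofReal_re, Complex.ofReal_im, Prod.smul_snd, smul_eq_mul]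
  ring

theorem omW_add_right : omW w b (a + a') = omW w b a + omW w b a' := by
  rw [omW_swap, omW_add_left, omW_swap w b a, omW_swap w b a']
  ring

theorem omW_smul_right : omW w b (r • a) = r * omW w b a := by
  rw [omW_swap, omW_smul_left, omW_swap w b a]
  ring

end Linear

/-! ### The form as a continuous bilinear map -/

/-- the form, as a function -/
noncomputable def omE (κ : ℝ) (x a b : E) : ℝ :=
  omW x.1 a.1 b.1 + κ * (1 / 2 * inner ℝ x.2 (a.2 * b.2 - b.2 * a.2))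

/-- the form -/
noncomputable def Om (κ : ℝ) (x : E) : E →L[ℝ] E →L[ℝ] ℝ :=
  LinearMap.toContinuousLinearMap
    ((LinearMap.toContinuousLinearMap : (E →ₗ[ℝ] ℝ) ≃ₗ[ℝ] (E →L[ℝ] ℝ)).toLinearMap ∘ₗ
      LinearMap.mk₂ ℝ (omE κ x)
        (by
          intro a a' b
          simp only [omE, Prod.fst_add, Prod.snd_add, omW_add_left, add_mul, mul_add]
          rw [show a.2 * b.2 + a'.2 * b.2 - (b.2 * a.2 + b.2 * a'.2) =
            (a.2 * b.2 - b.2 * a.2) + (a'.2 * b.2 - b.2 * a'.2) by abel, inner_add_right]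
          ring)
        (by
          intro r a b
          simp only [omE, Prod.smul_fst, Prod.smul_snd, omW_smul_left, smul_eq_mul]
          rw [smul_mul_assoc, mul_smul_comm, ← smul_sub, inner_smul_right]
          ring)
        (by
          intro b a a'
          simp only [omE, Prod.fst_add, Prod.snd_add, omW_add_right, add_mul, mul_add]
          rw [show b.2 * a.2 + b.2 * a'.2 - (a.2 * b.2 + a'.2 * b.2) =
            (b.2 * a.2 - a.2 * b.2) + (b.2 * a'.2 - a'.2 * b.2) by abel, inner_add_right]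
          ring)
        (by
          intro r b a
          simp only [omE, Prod.smul_fst, Prod.smul_snd, omW_smul_right, smul_eq_mul]
          rw [smul_mul_assoc, mul_smul_comm, ← smul_sub, inner_smul_right]
          ring))

theorem Om_apply (κ : ℝ) (x a b : E) : Om κ x a b =
    omW x.1 a.1 b.1 + κ * (1 / 2 * inner ℝ x.2 (a.2 * b.2 - b.2 * a.2)) := rfl

theorem Om_self (κ : ℝ) (x a : E) : Om κ x a a = 0 := by
  rw [Om_apply, sub_self, inner_zero_right]
  have := omW_swap x.1 a.1 a.1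
  linarith

/-! ### Smoothness -/

section Smooth

variable {X : Type*} [NormedAddCommGroup X] [NormedSpace ℝ X]

theorem cd_re {g : X → ℂ} {s : Set X} (h : ContDiffOn ℝ ∞ g s) :
    ContDiffOn ℝ ∞ (fun x => (g x).re) s := Complex.reCLM.contDiff.comp_contDiffOn h

theorem cd_im {g : X → ℂ} {s : Set X} (h : ContDiffOn ℝ ∞ g s) :
    ContDiffOn ℝ ∞ (fun x => (g x).im) s := Complex.imCLM.contDiff.comp_contDiffOn h

theorem cd_conj {g : X → ℂ} {s : Set X} (h : ContDiffOn ℝ ∞ g s) :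
    ContDiffOn ℝ ∞ (fun x => conj (g x)) s := Complex.conjCLE.contDiff.comp_contDiffOn h

theorem cd_ofReal {g : X → ℝ} {s : Set X} (h : ContDiffOn ℝ ∞ g s) :
    ContDiffOn ℝ ∞ (fun x => ((g x : ℝ) : ℂ)) s := Complex.ofRealCLM.contDiff.comp_contDiffOn h

theorem cd_normSq {g : X → ℂ} {s : Set X} (h : ContDiffOn ℝ ∞ g s) :
    ContDiffOn ℝ ∞ (fun x => Complex.normSq (g x)) s := by
  simp only [Complex.normSq_apply]
  exact ((cd_re h).mul (cd_re h)).add ((cd_im h).mul (cd_im h))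

theorem cd_c {s : Set A} : ContDiffOn ℝ ∞ (fun w : A => w.1) s := contDiff_fst.contDiffOn

theorem cd_z1 {s : Set A} : ContDiffOn ℝ ∞ (fun w : A => w.2.1) s :=
  (contDiff_fst.comp contDiff_snd).contDiffOn

theorem cd_z2 {s : Set A} : ContDiffOn ℝ ∞ (fun w : A => w.2.2.1) s :=
  (contDiff_fst.comp (contDiff_snd.comp contDiff_snd)).contDiffOn

theorem cd_s {s : Set A} : ContDiffOn ℝ ∞ (fun w : A => w.2.2.2) s :=
  (contDiff_snd.comp (contDiff_snd.comp contDiff_snd)).contDiffOn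

theorem cd_f {s : Set A} : ContDiffOn ℝ ∞ (fun w : A => fW w) s := contDiff_fW.contDiffOn

theorem cd_d {s : Set A} : ContDiffOn ℝ ∞ (fun w : A => dW w) s := contDiff_dW.contDiffOn

theorem cd_df (a : A) {s : Set A} : ContDiffOn ℝ ∞ (fun w : A => dfW w a) s :=
  ((contDiffOn_const.mul cd_z1).mul contDiffOn_const).add
    ((contDiffOn_const.mul (cd_z2.pow 2)).mul contDiffOn_const)

theorem cd_dd (a : A) {s : Set A} : ContDiffOn ℝ ∞ (fun w : A => ddW w a) s :=
  ((contDiffOn_const.mul cd_z1).mul contDiffOn_const).sub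
    ((contDiffOn_const.mul (cd_z2.pow 2)).mul contDiffOn_const)

theorem cd_Th (a : A) {s : Set A} : ContDiffOn ℝ ∞ (fun w : A => ThW w a) s :=
  ((contDiffOn_const.mul cd_z2).mul contDiffOn_const).sub
    ((contDiffOn_const.mul cd_z1).mul contDiffOn_const)

theorem cd_al (a : A) {s : Set A} : ContDiffOn ℝ ∞ (fun w : A => alW w a) s :=
  cd_im ((cd_conj cd_c).mul contDiffOn_const)

theorem cd_th (a : A) {s : Set A} : ContDiffOn ℝ ∞ (fun w : A => thW w a) s :=
  cd_im ((cd_conj cd_f).mul (cd_df a))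

theorem cd_de (a : A) {s : Set A} : ContDiffOn ℝ ∞ (fun w : A => deW w a) s :=
  ((cd_normSq cd_f).mul (cd_im ((cd_conj cd_d).mul (cd_dd a)))).sub
    ((cd_normSq cd_d).mul (cd_im ((cd_conj cd_f).mul (cd_df a))))

theorem cd_omW (a b : A) {s : Set A} : ContDiffOn ℝ ∞ (fun w : A => omW w a b) s :=
  ((((cd_al a).mul (cd_th b)).sub ((cd_th a).mul (cd_al b))).add
    ((cd_s.div_const 36).mul (((cd_re (cd_Th a)).mul (cd_im (cd_Th b))).sub
      ((cd_im (cd_Th a)).mul (cd_re (cd_Th b)))))).sub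
    ((contDiffOn_const.mul (cd_de b)).sub ((cd_de a).mul contDiffOn_const))

theorem contDiff_Om_apply (κ : ℝ) (a b : E) : ContDiff ℝ ∞ (fun x : E => Om κ x a b) := by
  simp only [Om_apply]
  have h1 : ContDiff ℝ ∞ (fun x : E => omW x.1 a.1 b.1) :=
    (contDiffOn_univ.1 (cd_omW a.1 b.1 (s := Set.univ))).comp contDiff_fst
  have h2 : ContDiff ℝ ∞ (fun x : E => inner ℝ x.2 (a.2 * b.2 - b.2 * a.2)) :=
    contDiff_snd.inner ℝ contDiff_const
  exact h1.add (contDiff_const.mul (contDiff_const.mul h2))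

theorem contDiff_Om (κ : ℝ) : ContDiff ℝ ∞ (Om κ) := by
  rw [contDiff_clm_apply_iff]
  intro a
  rw [contDiff_clm_apply_iff]
  intro b
  exact contDiff_Om_apply κ a b

end Smooth

/-! ### Tangency -/

theorem tanW_of {x ξ : E} (h : fderiv ℝ G x ξ = 0) : TanW x.1 ξ.1 := by
  rw [fderiv_G] at h
  simp only [Prod.mk_eq_zero] at h
  obtain ⟨h1, h2, h3, -, -⟩ := h
  rw [Complex.inner] at h1 h2 h3
  refine ⟨?_, ?_, ?_⟩
  · rw [mul_comm]
    linarith
  · rw [mul_comm]
    linarith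
  · rw [mul_comm]
    linarith

theorem tanB_of {x ξ : E} (h : fderiv ℝ G x ξ = 0) : inner ℝ x.2 ξ.2 = 0 ∧ ξ.2.re = 0 := by
  rw [fderiv_G] at h
  simp only [Prod.mk_eq_zero] at h
  obtain ⟨-, -, -, h4, h5⟩ := h
  exact ⟨by linarith, h5⟩

theorem fderiv_G_eq_zero {x ξ : E} (h : TanW x.1 ξ.1) (h4 : inner ℝ x.2 ξ.2 = 0)
    (h5 : ξ.2.re = 0) : fderiv ℝ G x ξ = 0 := by
  obtain ⟨h1, h2, h3⟩ := h
  rw [fderiv_G, Complex.inner, Complex.inner, Complex.inner, h4, h5]
  rw [mul_comm] at h1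
  rw [mul_comm] at h2
  rw [mul_comm] at h3
  simp only [Prod.mk_eq_zero]
  exact ⟨by linarith, by linarith, by linarith, by norm_num, trivial⟩

/-! ### The good domain -/

theorem isOpen_Dom : IsOpen Dom := by
  have h1 : IsOpen {w : A | w.1 ≠ 0} := isOpen_ne_fun continuous_fst continuous_const
  have h2 : IsOpen {w : A | fW w ≠ 0} := isOpen_ne_fun contDiff_fW.continuous continuous_const
  have h3 : Continuous n2W := by
    unfold n2W mW
    have := contDiff_dW.continuous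
    have h : Continuous (fun w : A => 12 * conj (dW w) * w.2.1 * w.2.2.1 ^ 2) := by
      fun_prop
    exact (Complex.continuous_normSq.comp h).add (by fun_prop)
  exact h1.inter (h2.inter (isOpen_ne_fun h3 continuous_const))

theorem mem_Dom {x : E} (hx : G x = 0) : x.1 ∈ Dom := by
  obtain ⟨hc, hf, hD, hv, hre⟩ := (mem_iff x).1 hx
  refine ⟨?_, ?_, ?_⟩
  · rw [← norm_pos_iff, hc]
    norm_num
  · rw [← norm_pos_iff, hf]
    norm_num
  · rw [n2W]
    by_cases hs : x.1.2.2.2 = 0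
    · have := Complex.normSq_pos.2 (mW_ne_zero hf hD hs)
      positivity
    · have := Complex.normSq_nonneg (mW x.1)
      positivity

/-! ### The inverse as a continuous linear map -/

theorem TW_add (w : A) (p l p' l' : ℝ) (μ μ' : ℂ) (t t' : ℝ) :
    TW w (p + p') (l + l') (μ + μ') (t + t') = TW w p l μ t + TW w p' l' μ' t' := by
  rw [TW_eq, TW_eq, TW_eq]
  refine Prod.ext ?_ (Prod.ext ?_ (Prod.ext ?_ ?_)) <;>
    simp only [Prod.fst_add, Prod.snd_add, Complex.ofReal_add] <;> ring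

theorem TW_smul (w : A) (r p l : ℝ) (μ : ℂ) (t : ℝ) :
    TW w (r * p) (r * l) (r * μ) (r * t) = r • TW w p l μ t := by
  rw [TW_eq, TW_eq]
  refine Prod.ext ?_ (Prod.ext ?_ (Prod.ext ?_ ?_)) <;>
    simp only [Prod.smul_fst, Prod.smul_snd, Complex.ofReal_mul, Complex.real_smul,
      smul_eq_mul] <;> ring

theorem LC_add (w : A) (β β' : A →L[ℝ] ℝ) : LC w (β + β') = LC w β + LC w β' := by
  apply Complex.ext <;> simp [LC]

theorem LC_smul (w : A) (r : ℝ) (β : A →L[ℝ] ℝ) : LC w (r • β) = r * LC w β := by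
  apply Complex.ext <;> simp [LC]

theorem JW_add (w : A) (β β' : A →L[ℝ] ℝ) : JW w (β + β') = JW w β + JW w β' := by
  rw [JW, JW, JW, ← TW_add, JC, JC, JC, Js, Js, Js, LC_add]
  congr 1
  · rw [add_apply]
    ring
  · rw [add_apply]
    ring
  · rw [add_apply, Complex.ofReal_add]
    ring
  · rw [mul_add, Complex.add_im]
    ring

theorem JW_smul (w : A) (r : ℝ) (β : A →L[ℝ] ℝ) : JW w (r • β) = r • JW w β := by
  rw [JW, JW, ← TW_smul, JC, JC, Js, Js, LC_smul]
  congr 1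
  · rw [smul_apply, smul_eq_mul]
    ring
  · rw [smul_apply, smul_eq_mul]
    ring
  · rw [smul_apply, smul_eq_mul, Complex.ofReal_mul]
    ring
  · rw [show mW w * (r * LC w β) = r * (mW w * LC w β) by ring, Complex.im_ofReal_mul]
    ring

/-- the inverse of the `w`-part of the form, as a continuous linear map -/
noncomputable def JL (w : A) : (A →L[ℝ] ℝ) →L[ℝ] A :=
  LinearMap.toContinuousLinearMap
    { toFun := JW w
      map_add' := JW_add w
      map_smul' := JW_smul w }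

theorem JL_apply (w : A) (β : A →L[ℝ] ℝ) : JL w β = JW w β := rfl

theorem cd_UW {s : Set A} : ContDiffOn ℝ ∞ UW s :=
  (contDiffOn_const.mul cd_c).prodMk contDiffOn_const

theorem cd_RW {s : Set A} : ContDiffOn ℝ ∞ RW s :=
  contDiffOn_const.prodMk ((contDiffOn_const.mul cd_z1).prodMk
    ((contDiffOn_const.mul cd_z2).prodMk contDiffOn_const))

theorem cd_BW {μ : A → ℂ} {t : A → ℝ} {s : Set A} (hμ : ContDiffOn ℝ ∞ μ s)
    (ht : ContDiffOn ℝ ∞ t s) : ContDiffOn ℝ ∞ (fun w => BW w (μ w) (t w)) s :=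
  contDiffOn_const.prodMk (((contDiffOn_const.mul (cd_z2.pow 2)).mul hμ).prodMk
    (((contDiffOn_const.mul cd_z1).mul hμ).prodMk ht))

theorem cd_TW {p l : A → ℝ} {μ : A → ℂ} {t : A → ℝ} {s : Set A} (hp : ContDiffOn ℝ ∞ p s)
    (hl : ContDiffOn ℝ ∞ l s) (hμ : ContDiffOn ℝ ∞ μ s) (ht : ContDiffOn ℝ ∞ t s) :
    ContDiffOn ℝ ∞ (fun w => TW w (p w) (l w) (μ w) (t w)) s :=
  ((hp.smul cd_UW).add (hl.smul cd_RW)).add (cd_BW hμ ht)

theorem cd_m {s : Set A} : ContDiffOn ℝ ∞ mW s :=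
  ((contDiffOn_const.mul (cd_conj cd_d)).mul cd_z1).mul (cd_z2.pow 2)

theorem cd_n2 {s : Set A} : ContDiffOn ℝ ∞ n2W s := (cd_normSq cd_m).add (cd_s.pow 2)

theorem cd_JW (β : A →L[ℝ] ℝ) : ContDiffOn ℝ ∞ (fun w => JW w β) Dom := by
  have hU : ContDiffOn ℝ ∞ (fun w => β (UW w)) Dom := β.contDiff.comp_contDiffOn cd_UW
  have hR : ContDiffOn ℝ ∞ (fun w => β (RW w)) Dom := β.contDiff.comp_contDiffOn cd_RW
  have hB1 : ContDiffOn ℝ ∞ (fun w => β (BW w 1 0)) Dom :=
    β.contDiff.comp_contDiffOn (cd_BW contDiffOn_const contDiffOn_const)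
  have hB2 : ContDiffOn ℝ ∞ (fun w => β (BW w Complex.I 0)) Dom :=
    β.contDiff.comp_contDiffOn (cd_BW contDiffOn_const contDiffOn_const)
  have hB3 : ContDiffOn ℝ ∞ (fun w => β (BW w 0 1)) Dom :=
    β.contDiff.comp_contDiffOn (cd_BW contDiffOn_const contDiffOn_const)
  have hL : ContDiffOn ℝ ∞ (fun w => LC w β) Dom := by
    have : (fun w => LC w β) = fun w => ((β (BW w 1 0) : ℝ) : ℂ) +
        ((β (BW w Complex.I 0) : ℝ) : ℂ) * Complex.I := by
      funext w
      apply Complex.ext <;> simp [LC]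
    rw [this]
    exact (cd_ofReal hB1).add ((cd_ofReal hB2).mul contDiffOn_const)
  have hden : ContDiffOn ℝ ∞ (fun w => 6 * Complex.normSq w.1 * Complex.normSq (fW w)) Dom :=
    (contDiffOn_const.mul (cd_normSq cd_c)).mul (cd_normSq cd_f)
  have hden0 : ∀ w ∈ Dom, 6 * Complex.normSq w.1 * Complex.normSq (fW w) ≠ 0 := by
    rintro w ⟨hc, hf, -⟩
    have := Complex.normSq_pos.2 hc
    have := Complex.normSq_pos.2 hf
    positivity
  have hd2 : ContDiffOn ℝ ∞ (fun w => (Complex.normSq (fW w) * n2W w)⁻¹) Dom := by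
    refine ((cd_normSq cd_f).mul cd_n2).inv ?_
    rintro w ⟨-, hf, hn⟩
    exact mul_ne_zero (Complex.normSq_pos.2 hf).ne' hn
  refine cd_TW (hR.div hden hden0) (hU.neg.div hden hden0) ?_ ?_
  · exact (cd_ofReal hd2).neg.mul (contDiffOn_const.mul
      (((cd_ofReal cd_s).mul hL).sub ((cd_ofReal hB3).mul (cd_conj cd_m))))
  · exact hd2.neg.mul (cd_im (cd_m.mul hL))

/-- (J1) smoothness of the inverse -/
theorem contDiffOn_JL : ContDiffOn ℝ ∞ JL Dom := by
  rw [contDiffOn_clm_apply]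
  intro β
  exact cd_JW β

/-- (J2) the values of the inverse are tangent to all level sets -/
theorem fderiv_G_JL (w : A) (β : A →L[ℝ] ℝ) (v : B) :
    fderiv ℝ G ((w, v) : E) ((JL w β, 0) : E) = 0 := by
  refine fderiv_G_eq_zero ?_ ?_ ?_
  · exact tanW_JW β
  · exact inner_zero_right _
  · rfl

/-- (J3) the inverse inverts the form on tangent vectors -/
theorem omW_JL {w ξ : A} (hw : w ∈ Dom) (β : A →L[ℝ] ℝ) (h : TanW w ξ) :
    omW w (JL w β) ξ = β ξ := omW_JW hw β h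

/-! ### Nondegeneracy -/

theorem inner_eq (a b : B) :
    inner ℝ a b = a.re * b.re + a.imI * b.imI + a.imJ * b.imJ + a.imK * b.imK := by
  rw [Quaternion.inner_def]
  simp only [Quaternion.re_mul, Quaternion.re_star, Quaternion.imI_star, Quaternion.imJ_star,
    Quaternion.imK_star]
  ring

theorem inner_comm_eq (n a b : B) : inner ℝ n (a * b - b * a) =
    2 * (n.imI * (a.imJ * b.imK - a.imK * b.imJ) + n.imJ * (a.imK * b.imI - a.imI * b.imK) +
      n.imK * (a.imI * b.imJ - a.imJ * b.imI)) := by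
  rw [inner_eq]
  simp only [Quaternion.re_mul, Quaternion.re_sub, Quaternion.imI_sub, Quaternion.imJ_sub,
    Quaternion.imK_sub, Quaternion.imI_mul, Quaternion.imJ_mul, Quaternion.imK_mul]
  ring

theorem exists_quat (a b c d : ℝ) : ∃ q : B, q.re = a ∧ q.imI = b ∧ q.imJ = c ∧ q.imK = d :=
  ⟨⟨a, b, c, d⟩, rfl, rfl, rfl, rfl⟩

theorem quat_norm {n : B} (hn : ‖n‖ = 1) (hnr : n.re = 0) :
    n.imI ^ 2 + n.imJ ^ 2 + n.imK ^ 2 = 1 := by
  have h1 : Quaternion.normSq n = 1 := by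
    rw [Quaternion.normSq_eq_norm_mul_self, hn, one_mul]
  rw [Quaternion.normSq_def', hnr] at h1
  linarith

theorem nondeg_B {n q : B} (hn : ‖n‖ = 1) (hnr : n.re = 0) (hq : q.re = 0)
    (hnq : inner ℝ n q = 0)
    (h : ∀ b : B, b.re = 0 → inner ℝ n b = 0 → inner ℝ n (q * b - b * q) = 0) : q = 0 := by
  have hn2 := quat_norm hn hnr
  obtain ⟨b, hb0, hb1, hb2, hb3⟩ := exists_quat 0 (n.imJ * q.imK - n.imK * q.imJ)
    (n.imK * q.imI - n.imI * q.imK) (n.imI * q.imJ - n.imJ * q.imI)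
  have h2 := h b hb0 (by
    rw [inner_eq, hb0, hb1, hb2, hb3]
    ring)
  rw [inner_comm_eq, hb1, hb2, hb3] at h2
  rw [inner_eq, hnr, hq] at hnq
  have h3 : (n.imJ * q.imK - n.imK * q.imJ) ^ 2 + (n.imK * q.imI - n.imI * q.imK) ^ 2 +
      (n.imI * q.imJ - n.imJ * q.imI) ^ 2 = 0 := by
    linear_combination h2 / 2
  have h4 : q.imI ^ 2 + q.imJ ^ 2 + q.imK ^ 2 = 0 := by
    have h5 : (n.imI ^ 2 + n.imJ ^ 2 + n.imK ^ 2) * (q.imI ^ 2 + q.imJ ^ 2 + q.imK ^ 2) =
        (n.imI * q.imI + n.imJ * q.imJ + n.imK * q.imK) ^ 2 := by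
      linear_combination h3
    rw [hn2, one_mul] at h5
    rw [h5]
    have h6 : n.imI * q.imI + n.imJ * q.imJ + n.imK * q.imK = 0 := by linarith
    rw [h6]
    ring
  have e1 : q.imI = 0 := by nlinarith [sq_nonneg q.imI, sq_nonneg q.imJ, sq_nonneg q.imK]
  have e2 : q.imJ = 0 := by nlinarith [sq_nonneg q.imI, sq_nonneg q.imJ, sq_nonneg q.imK]
  have e3 : q.imK = 0 := by nlinarith [sq_nonneg q.imI, sq_nonneg q.imJ, sq_nonneg q.imK]
  ext
  · exact hq
  · exact e1
  · exact e2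
  · exact e3

theorem Om_nondeg {κ : ℝ} (hκ : κ ≠ 0) {x : E} (hx : G x = 0) {a : E}
    (ha : fderiv ℝ G x a = 0) (h : ∀ b, fderiv ℝ G x b = 0 → Om κ x a b = 0) : a = 0 := by
  obtain ⟨hc, hf, hD, hv, hre⟩ := (mem_iff x).1 hx
  have hdom := mem_Dom hx
  obtain ⟨hnq, hq⟩ := tanB_of ha
  have h1 : a.1 = 0 := by
    by_contra hne
    obtain ⟨β, hβ⟩ := exists_dual_vector ℝ a.1 (norm_ne_zero_iff.2 hne)
    have h2 := h ((JL x.1 β, 0) : E) (fderiv_G_JL x.1 β x.2)
    rw [Om_apply, omW_swap, omW_JL hdom β (tanW_of ha), hβ.2, mul_zero, zero_mul, sub_zero,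
      inner_zero_right, mul_zero, mul_zero, add_zero] at h2
    have h3 : ‖a.1‖ ≠ 0 := norm_ne_zero_iff.2 hne
    apply h3
    have h4 : -(‖a.1‖ : ℝ) = 0 := by simpa using h2
    linarith
  have h2 : a.2 = 0 := by
    refine nondeg_B hv hre hq hnq ?_
    intro b hb0 hb
    have hzero : TanW x.1 (0 : A) := by
      refine ⟨?_, ?_, ?_⟩ <;> simp [dfW, ddW]
    have h3 := h ((0, b) : E) (fderiv_G_eq_zero hzero hb hb0)
    have h5 : omW x.1 a.1 (0 : A) = 0 := by
      have := omW_smul_right x.1 (0 : A) a.1 (0 : ℝ)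
      simpa using this
    rw [Om_apply, h5, zero_add] at h3
    have h4 := (mul_eq_zero.1 h3).resolve_left hκ
    linarith
  exact Prod.ext h1 h2

/-! ### Closedness -/

theorem hd_Om (κ : ℝ) (x u v w : E) : HasDerivAt (fun t : ℝ => Om κ (x + t • u) v w)
    (dom x.1 u.1 v.1 w.1 + κ * (1 / 2 * inner ℝ u.2 (v.2 * w.2 - w.2 * v.2))) 0 := by
  have h1 : HasDerivAt (fun t : ℝ => omW (x.1 + t • u.1) v.1 w.1) (dom x.1 u.1 v.1 w.1) 0 :=
    hd_om x.1 u.1 v.1 w.1
  have h2 : HasDerivAt (fun t : ℝ => x.2 + t • u.2) u.2 0 := by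
    have h : HasDerivAt (fun t : ℝ => t • u.2) ((1 : ℝ) • u.2) 0 :=
      HasDerivAt.smul_const (hasDerivAt_id (0 : ℝ)) u.2
    have h2 := dadd (hasDerivAt_const (0 : ℝ) x.2) h
    rw [zero_add, one_smul] at h2
    exact h2
  have h3 : HasDerivAt (fun t : ℝ => inner ℝ (x.2 + t • u.2) (v.2 * w.2 - w.2 * v.2))
      (inner ℝ u.2 (v.2 * w.2 - w.2 * v.2)) 0 := by
    have h4 := HasDerivAt.inner ℝ h2 (hasDerivAt_const (0 : ℝ) (v.2 * w.2 - w.2 * v.2))
    rw [inner_zero_right, zero_add] at h4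
    exact h4
  exact dadd h1 (dcm κ (dcm (1 / 2) h3))

theorem fderiv_Om (κ : ℝ) (x u v w : E) : fderiv ℝ (Om κ) x u v w =
    dom x.1 u.1 v.1 w.1 + κ * (1 / 2 * inner ℝ u.2 (v.2 * w.2 - w.2 * v.2)) := by
  have h0 : HasFDerivAt (Om κ) (fderiv ℝ (Om κ) x) (x + (0 : ℝ) • u) := by
    rw [zero_smul, add_zero]
    exact ((contDiff_Om κ).differentiable (by simp) x).hasFDerivAt
  have hl : HasDerivAt (fun t : ℝ => x + t • u) u 0 := by
    have h : HasDerivAt (fun t : ℝ => t • u) ((1 : ℝ) • u) 0 :=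
      HasDerivAt.smul_const (hasDerivAt_id (0 : ℝ)) u
    have h2 := dadd (hasDerivAt_const (0 : ℝ) x) h
    rw [zero_add, one_smul] at h2
    exact h2
  have h1 : HasDerivAt (fun t : ℝ => Om κ (x + t • u)) (fderiv ℝ (Om κ) x u) 0 :=
    HasFDerivAt.comp_hasDerivAt (f := fun t : ℝ => x + t • u) (0 : ℝ) h0 hl
  have h2 : HasDerivAt (fun t : ℝ => Om κ (x + t • u) v w) (fderiv ℝ (Om κ) x u v w) 0 := by
    have e1 := ((ContinuousLinearMap.apply ℝ (E →L[ℝ] ℝ) v).hasFDerivAt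
      (x := Om κ (x + (0 : ℝ) • u))).comp_hasDerivAt (0 : ℝ) h1
    exact ((ContinuousLinearMap.apply ℝ ℝ w).hasFDerivAt
      (x := Om κ (x + (0 : ℝ) • u) v)).comp_hasDerivAt (0 : ℝ) e1
  exact h2.unique (hd_Om κ x u v w)

theorem det_B {n u v w : B} (hn : ‖n‖ = 1) (hnr : n.re = 0) (hu0 : u.re = 0) (hv0 : v.re = 0)
    (hw0 : w.re = 0) (hu : inner ℝ n u = 0) (hv : inner ℝ n v = 0) (hw : inner ℝ n w = 0) :
    inner ℝ u (v * w - w * v) = 0 := by
  have hn2 := quat_norm hn hnr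
  rw [inner_eq, hnr] at hu hv hw
  rw [hu0] at hu
  rw [hv0] at hv
  rw [hw0] at hw
  rw [inner_comm_eq]
  have e : (n.imI ^ 2 + n.imJ ^ 2 + n.imK ^ 2) *
      (u.imI * (v.imJ * w.imK - v.imK * w.imJ) + u.imJ * (v.imK * w.imI - v.imI * w.imK) +
      u.imK * (v.imI * w.imJ - v.imJ * w.imI)) = 0 := by
    linear_combination
      (n.imI * (v.imJ * w.imK - v.imK * w.imJ) + n.imJ * (v.imK * w.imI - v.imI * w.imK) +
        n.imK * (v.imI * w.imJ - v.imJ * w.imI)) * hu +
      (n.imI * (w.imJ * u.imK - w.imK * u.imJ) + n.imJ * (w.imK * u.imI - w.imI * u.imK) +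
        n.imK * (w.imI * u.imJ - w.imJ * u.imI)) * hv +
      (n.imI * (u.imJ * v.imK - u.imK * v.imJ) + n.imJ * (u.imK * v.imI - u.imI * v.imK) +
        n.imK * (u.imI * v.imJ - u.imJ * v.imI)) * hw
  rw [hn2, one_mul] at e
  rw [e, mul_zero]

theorem Om_closed (κ : ℝ) {x : E} (hx : G x = 0) {u v w : E} (hu : fderiv ℝ G x u = 0)
    (hv : fderiv ℝ G x v = 0) (hw : fderiv ℝ G x w = 0) :
    fderiv ℝ (Om κ) x u v w + fderiv ℝ (Om κ) x v w u + fderiv ℝ (Om κ) x w u v = 0 := by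
  obtain ⟨hc, hf, hD, hv', hre⟩ := (mem_iff x).1 hx
  obtain ⟨hu1, hu2⟩ := tanB_of hu
  obtain ⟨hv1, hv2⟩ := tanB_of hv
  obtain ⟨hw1, hw2⟩ := tanB_of hw
  rw [fderiv_Om, fderiv_Om, fderiv_Om, det_B hv' hre hu2 hv2 hw2 hu1 hv1 hw1,
    det_B hv' hre hv2 hw2 hu2 hv1 hw1 hu1, det_B hv' hre hw2 hu2 hv2 hw1 hu1 hv1]
  have := dom_cyc (mem_Dom hx) (tanW_of hu) (tanW_of hv) (tanW_of hw)
  linarith

end Vale.Agent.P265.Dis
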