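import Vale.Agent.P265.Dis.Model
import Mathlib.Analysis.Calculus.Deriv.Add
import Mathlib.Analysis.Calculus.Deriv.Mul
import Mathlib.Analysis.Calculus.Deriv.Star
import Mathlib.Analysis.Calculus.ContDiff.FiniteDimension

/-!
# The symplectic form on the model

Ambient facts about the `2`-form `Om κ` on `E`: the explicit inverse `J` of its `w`-part,
nondegeneracy and closedness on the tangent spaces of the level set.
-/

open Quaternion ComplexConjugate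
open scoped ContDiff

namespace Vale.Agent.P265.Dis

/-- the form `Θ = 2 z₂ dz₁ - 3 z₁ dz₂` -/
def ThW (w a : A) : ℂ := 2 * w.2.2.1 * a.2.1 - 3 * w.2.1 * a.2.2.1
/-- `Im (conj c dc)` -/
def alW (w a : A) : ℝ := (conj w.1 * a.1).im
/-- `Im (conj f df)` -/
def thW (w a : A) : ℝ := (conj (fW w) * dfW w a).im
/-- `|f|² Im (conj D dD) - |D|² Im (conj f df)` -/
def deW (w a : A) : ℝ := Complex.normSq (fW w) * (conj (dW w) * ddW w a).im -
  Complex.normSq (dW w) * (conj (fW w) * dfW w a).im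

/-- the `w`-part of the symplectic form -/
noncomputable def omW (w a b : A) : ℝ :=
  (alW w a * thW w b - thW w a * alW w b) +
    w.2.2.2 / 36 * ((ThW w a).re * (ThW w b).im - (ThW w a).im * (ThW w b).re) -
    (a.2.2.2 * deW w b - deW w a * b.2.2.2)

/-- tangency to the level sets of the `w`-part of `G` (halves of the differentials) -/
structure TanW (w a : A) : Prop where
  h1 : (conj w.1 * a.1).re = 0
  h2 : (conj (fW w) * dfW w a).re = 0
  h3 : (conj (dW w) * ddW w a).re + w.2.2.2 * a.2.2.2 = 0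

/-- the tangent field `U` -/
noncomputable def UW (w : A) : A := (Complex.I * w.1, 0, 0, 0)
/-- the tangent field `R` -/
noncomputable def RW (w : A) : A := (0, 3 * Complex.I * w.2.1, 2 * Complex.I * w.2.2.1, 0)
/-- the fibre vector with coordinates `(μ, t)` -/
noncomputable def BW (w : A) (μ : ℂ) (t : ℝ) : A := (0, 3 * w.2.2.1 ^ 2 * μ, -2 * w.2.1 * μ, t)

/-- the denominators -/
noncomputable def n2W (w : A) : ℝ := Complex.normSq (mW w) + w.2.2.2 ^ 2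

/-- the good set: an open set on which everything is defined -/
def Dom : Set A := {w | w.1 ≠ 0 ∧ fW w ≠ 0 ∧ n2W w ≠ 0}

/-- decomposition of tangent vectors -/
theorem decomp {w a : A} (hw : w ∈ Dom) (h1 : (conj w.1 * a.1).re = 0)
    (h2 : (conj (fW w) * dfW w a).re = 0) :
    ∃ (p l : ℝ) (μ : ℂ), a = p • UW w + l • RW w + BW w μ a.2.2.2 := by
  obtain ⟨hc, hf, hn⟩ := hw
  refine ⟨(conj w.1 * a.1).im / Complex.normSq w.1, (conj (fW w) * dfW w a).im /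
    (6 * Complex.normSq (fW w)), ThW w a / (6 * fW w), ?_⟩
  have hc' : (Complex.normSq w.1 : ℂ) ≠ 0 := by exact_mod_cast (Complex.normSq_pos.2 hc).ne'
  have hf' : (Complex.normSq (fW w) : ℂ) ≠ 0 := by
    exact_mod_cast (Complex.normSq_pos.2 hf).ne'
  have e1 : conj w.1 * a.1 = Complex.I * ((conj w.1 * a.1).im : ℝ) := by
    apply Complex.ext
    · simp [h1]
    · simp
  have e2 : conj (fW w) * dfW w a = Complex.I * ((conj (fW w) * dfW w a).im : ℝ) := by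
    apply Complex.ext
    · simp [h2]
    · simp
  have hns : (Complex.normSq w.1 : ℂ) = conj w.1 * w.1 := by
    rw [Complex.normSq_eq_conj_mul_self]
  have hnf : (Complex.normSq (fW w) : ℂ) = conj (fW w) * fW w := by
    rw [Complex.normSq_eq_conj_mul_self]
  have hcc : conj w.1 ≠ 0 := by simpa using hc
  have hfc : conj (fW w) ≠ 0 := by simpa using hf
  generalize (conj w.1 * a.1).im = p at *
  generalize (conj (fW w) * dfW w a).im = l at *
  have e1' : a.1 = Complex.I * p / conj w.1 := by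
    field_simp
    rw [← e1]
    ring
  have e2' : dfW w a = Complex.I * l / conj (fW w) := by
    field_simp
    rw [← e2]
    ring
  have e3 : (2 * w.2.1 * a.2.1 + 3 * w.2.2.1 ^ 2 * a.2.2.1) = Complex.I * l / conj (fW w) := e2'
  obtain ⟨c, z1, z2, s⟩ := w
  obtain ⟨a0, a1, a2, t⟩ := a
  simp only [UW, RW, BW, ThW, fW] at *
  refine Prod.ext ?_ (Prod.ext ?_ (Prod.ext ?_ ?_))
  · simp only [Prod.fst_add, Prod.smul_fst, smul_zero, add_zero, Complex.real_smul]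
    rw [e1']
    push_cast
    rw [hns]
    field_simp
  · simp only [Prod.fst_add, Prod.snd_add, Prod.smul_fst, Prod.smul_snd, smul_zero,
      Complex.real_smul, zero_add]
    push_cast
    rw [hnf]
    field_simp
    field_simp at e3
    linear_combination (3 * z1) * e3
  · simp only [Prod.fst_add, Prod.snd_add, Prod.smul_fst, Prod.smul_snd, smul_zero,
      Complex.real_smul, zero_add]
    push_cast
    rw [hnf]
    field_simp
    field_simp at e3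
    linear_combination (2 * z2) * e3
  · simp

/-- the vector with coordinates `(p, l, μ, t)` -/
noncomputable def TW (w : A) (p l : ℝ) (μ : ℂ) (t : ℝ) : A := p • UW w + l • RW w + BW w μ t

theorem TW_eq (w : A) (p l : ℝ) (μ : ℂ) (t : ℝ) : TW w p l μ t =
    ((p : ℂ) * (Complex.I * w.1), (l : ℂ) * (3 * Complex.I * w.2.1) + 3 * w.2.2.1 ^ 2 * μ,
      (l : ℂ) * (2 * Complex.I * w.2.2.1) + -2 * w.2.1 * μ, t) := by
  obtain ⟨c, z1, z2, s⟩ := w
  simp [TW, UW, RW, BW, Complex.real_smul]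

theorem dfW_TW (w : A) (p l : ℝ) (μ : ℂ) (t : ℝ) :
    dfW w (TW w p l μ t) = 6 * Complex.I * l * fW w := by
  rw [TW_eq]
  simp only [dfW, fW]
  ring

theorem ddW_TW (w : A) (p l : ℝ) (μ : ℂ) (t : ℝ) :
    ddW w (TW w p l μ t) = 6 * Complex.I * l * dW w + 12 * w.2.1 * w.2.2.1 ^ 2 * μ := by
  rw [TW_eq]
  simp only [ddW, dW]
  ring

theorem ThW_TW (w : A) (p l : ℝ) (μ : ℂ) (t : ℝ) :
    ThW w (TW w p l μ t) = 6 * fW w * μ := by
  rw [TW_eq]
  simp only [ThW, fW]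
  ring

theorem alW_TW (w : A) (p l : ℝ) (μ : ℂ) (t : ℝ) :
    alW w (TW w p l μ t) = p * Complex.normSq w.1 := by
  rw [TW_eq]
  simp only [alW]
  have : conj w.1 * ((p : ℂ) * (Complex.I * w.1)) =
      ((p * Complex.normSq w.1 : ℝ) : ℂ) * Complex.I := by
    push_cast
    rw [Complex.normSq_eq_conj_mul_self]
    ring
  rw [this]
  simp

theorem conj_f_dfW_TW (w : A) (p l : ℝ) (μ : ℂ) (t : ℝ) :
    conj (fW w) * dfW w (TW w p l μ t) = ((6 * l * Complex.normSq (fW w) : ℝ) : ℂ) * Complex.I := by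
  rw [dfW_TW]
  push_cast
  rw [Complex.normSq_eq_conj_mul_self]
  ring

theorem conj_d_ddW_TW (w : A) (p l : ℝ) (μ : ℂ) (t : ℝ) :
    conj (dW w) * ddW w (TW w p l μ t) =
      ((6 * l * Complex.normSq (dW w) : ℝ) : ℂ) * Complex.I + mW w * μ := by
  rw [ddW_TW]
  push_cast
  rw [Complex.normSq_eq_conj_mul_self, mW]
  ring

theorem thW_TW (w : A) (p l : ℝ) (μ : ℂ) (t : ℝ) :
    thW w (TW w p l μ t) = 6 * l * Complex.normSq (fW w) := by
  rw [thW, conj_f_dfW_TW]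
  simp

theorem deW_TW (w : A) (p l : ℝ) (μ : ℂ) (t : ℝ) :
    deW w (TW w p l μ t) = Complex.normSq (fW w) * (mW w * μ).im := by
  rw [deW, conj_f_dfW_TW, conj_d_ddW_TW]
  simp only [Complex.add_im, Complex.mul_im, Complex.ofReal_re, Complex.I_re, Complex.I_im,
    Complex.ofReal_im, mul_zero, mul_one, add_zero]
  ring

theorem TW_s (w : A) (p l : ℝ) (μ : ℂ) (t : ℝ) : (TW w p l μ t).2.2.2 = t := by
  rw [TW_eq]

theorem omW_TW (w : A) (p l : ℝ) (μ : ℂ) (t : ℝ) (p' l' : ℝ) (μ' : ℂ) (t' : ℝ) :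
    omW w (TW w p l μ t) (TW w p' l' μ' t') =
      6 * Complex.normSq w.1 * Complex.normSq (fW w) * (p * l' - l * p') +
      Complex.normSq (fW w) * (w.2.2.2 * (μ.re * μ'.im - μ.im * μ'.re) - t * (mW w * μ').im +
        t' * (mW w * μ).im) := by
  simp only [omW, ThW_TW, alW_TW, thW_TW, deW_TW, TW_s]
  simp only [Complex.mul_re, Complex.mul_im, Complex.normSq_apply, Complex.re_ofNat,
    Complex.im_ofNat]
  ring

theorem tanW_TW_iff (w : A) (p l : ℝ) (μ : ℂ) (t : ℝ) :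
    TanW w (TW w p l μ t) ↔ (mW w * μ).re + w.2.2.2 * t = 0 := by
  have e1 : conj w.1 * (TW w p l μ t).1 = ((p * Complex.normSq w.1 : ℝ) : ℂ) * Complex.I := by
    rw [TW_eq]
    push_cast
    rw [Complex.normSq_eq_conj_mul_self]
    ring
  constructor
  · rintro ⟨-, -, h⟩
    rw [conj_d_ddW_TW, TW_s] at h
    simpa using h
  · intro h
    refine ⟨?_, ?_, ?_⟩
    · rw [e1]
      simp
    · rw [conj_f_dfW_TW]
      simp
    · rw [conj_d_ddW_TW, TW_s]
      simpa using h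

theorem TanW.exists_TW {w a : A} (hw : w ∈ Dom) (h : TanW w a) :
    ∃ (p l : ℝ) (μ : ℂ), a = TW w p l μ a.2.2.2 :=
  decomp hw h.h1 h.h2

/-! ### The inverse of the form -/

section J

/-- the values of `ℓ` on fibre vectors -/
noncomputable def LC (w : A) (ℓ : A →L[ℝ] ℝ) : ℂ := ⟨ℓ (BW w 1 0), ℓ (BW w Complex.I 0)⟩

/-- the `μ`-coordinate of the fibre part -/
noncomputable def JC (w : A) (ℓ : A →L[ℝ] ℝ) : ℂ :=
  -(((Complex.normSq (fW w) * n2W w)⁻¹ : ℝ) : ℂ) *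
    (Complex.I * (w.2.2.2 * LC w ℓ - ((ℓ (BW w 0 1) : ℝ) : ℂ) * conj (mW w)))

/-- the `s`-coordinate of the fibre part -/
noncomputable def Js (w : A) (ℓ : A →L[ℝ] ℝ) : ℝ :=
  -(Complex.normSq (fW w) * n2W w)⁻¹ * (mW w * LC w ℓ).im

/-- the vector dual to `ℓ` with respect to the `w`-part of the form -/
noncomputable def JW (w : A) (ℓ : A →L[ℝ] ℝ) : A :=
  TW w (ℓ (RW w) / (6 * Complex.normSq w.1 * Complex.normSq (fW w)))
    (-ℓ (UW w) / (6 * Complex.normSq w.1 * Complex.normSq (fW w))) (JC w ℓ) (Js w ℓ)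

theorem BW_eq (w : A) (μ : ℂ) (t : ℝ) :
    BW w μ t = μ.re • BW w 1 0 + μ.im • BW w Complex.I 0 + t • BW w 0 1 := by
  obtain ⟨c, z1, z2, s⟩ := w
  refine Prod.ext ?_ (Prod.ext ?_ (Prod.ext ?_ ?_))
  · simp [BW]
  · simp only [BW, Prod.fst_add, Prod.snd_add, Prod.smul_fst, Prod.smul_snd, Complex.real_smul]
    nth_rewrite 1 [← Complex.re_add_im μ]
    ring
  · simp only [BW, Prod.fst_add, Prod.snd_add, Prod.smul_fst, Prod.smul_snd, Complex.real_smul]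
    nth_rewrite 1 [← Complex.re_add_im μ]
    ring
  · simp [BW]

theorem ell_BW (w : A) (ℓ : A →L[ℝ] ℝ) (μ : ℂ) (t : ℝ) :
    ℓ (BW w μ t) = μ.re * (LC w ℓ).re + μ.im * (LC w ℓ).im + t * ℓ (BW w 0 1) := by
  rw [BW_eq, map_add, map_add, map_smul, map_smul, map_smul]
  simp [LC]

/-- `J` is tangent to all level sets. -/
theorem tanW_JW {w : A} (ℓ : A →L[ℝ] ℝ) : TanW w (JW w ℓ) := by
  rw [JW, tanW_TW_iff, JC, Js]
  simp only [Complex.mul_re, Complex.mul_im, Complex.sub_re, Complex.sub_im, Complex.neg_re,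
    Complex.neg_im, Complex.ofReal_re, Complex.ofReal_im, Complex.I_re, Complex.I_im,
    Complex.conj_re, Complex.conj_im]
  ring

/-- `J` inverts the `w`-part of the form. -/
theorem omW_JW {w b : A} (hw : w ∈ Dom) (ℓ : A →L[ℝ] ℝ) (hb : TanW w b) :
    omW w (JW w ℓ) b = ℓ b := by
  obtain ⟨p, l, μ, hb'⟩ := hb.exists_TW hw
  rw [hb'] at hb ⊢
  rw [tanW_TW_iff] at hb
  generalize b.2.2.2 = t at hb hb' ⊢
  obtain ⟨hc, hf, hn⟩ := hw
  have hc' : Complex.normSq w.1 ≠ 0 := (Complex.normSq_pos.2 hc).ne'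
  have hf' : Complex.normSq (fW w) ≠ 0 := (Complex.normSq_pos.2 hf).ne'
  rw [JW, omW_TW, TW, map_add, map_add, map_smul, map_smul, ell_BW, JC, Js]
  simp only [Complex.mul_re, Complex.mul_im, Complex.sub_re, Complex.sub_im, Complex.neg_re,
    Complex.neg_im, Complex.ofReal_re, Complex.ofReal_im, Complex.I_re, Complex.I_im,
    Complex.conj_re, Complex.conj_im, smul_eq_mul] at hb ⊢
  have hn2 : n2W w = (mW w).re ^ 2 + (mW w).im ^ 2 + w.2.2.2 ^ 2 := by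
    rw [n2W, Complex.normSq_apply]
    ring
  rw [hn2] at hn ⊢
  generalize Complex.normSq w.1 = C at *
  generalize Complex.normSq (fW w) = K at *
  generalize (mW w).re = m1 at *
  generalize (mW w).im = m2 at *
  generalize (LC w ℓ).re = L1 at *
  generalize (LC w ℓ).im = L2 at *
  generalize ℓ (BW w 0 1) = L3 at *
  generalize ℓ (UW w) = LU at *
  generalize ℓ (RW w) = LR at *
  generalize w.2.2.2 = s at *
  generalize μ.re = u1 at *
  generalize μ.im = u2 at *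
  field_simp
  linear_combination (-(L1 * m1 - L2 * m2 + L3 * s)) * hb

end J

/-! ### Derivatives along lines -/

section Lines

theorem dadd {F : Type*} [NormedAddCommGroup F] [NormedSpace ℝ F] {f g : ℝ → F} {f' g' : F} {x : ℝ}
    (hf : HasDerivAt f f' x) (hg : HasDerivAt g g' x) :
    HasDerivAt (fun t => f t + g t) (f' + g') x := HasDerivAt.add hf hg

theorem dsub {F : Type*} [NormedAddCommGroup F] [NormedSpace ℝ F] {f g : ℝ → F} {f' g' : F} {x : ℝ}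
    (hf : HasDerivAt f f' x) (hg : HasDerivAt g g' x) :
    HasDerivAt (fun t => f t - g t) (f' - g') x := HasDerivAt.sub hf hg

theorem dmul {F : Type*} [NormedRing F] [NormedAlgebra ℝ F] {f g : ℝ → F} {f' g' : F} {x : ℝ}
    (hf : HasDerivAt f f' x) (hg : HasDerivAt g g' x) :
    HasDerivAt (fun t => f t * g t) (f' * g x + f x * g') x := HasDerivAt.mul hf hg

theorem dcm {F : Type*} [NormedRing F] [NormedAlgebra ℝ F] {g : ℝ → F} {g' : F} {x : ℝ} (c : F)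
    (hg : HasDerivAt g g' x) : HasDerivAt (fun t => c * g t) (c * g') x :=
  HasDerivAt.const_mul c hg

theorem dmc {F : Type*} [NormedRing F] [NormedAlgebra ℝ F] {g : ℝ → F} {g' : F} {x : ℝ}
    (hg : HasDerivAt g g' x) (c : F) : HasDerivAt (fun t => g t * c) (g' * c) x :=
  HasDerivAt.mul_const hg c

theorem hd_line (x u : A) : HasDerivAt (fun t : ℝ => x + t • u) u 0 := by
  have h : HasDerivAt (fun t : ℝ => t • u) ((1 : ℝ) • u) 0 :=
    HasDerivAt.smul_const (hasDerivAt_id (0 : ℝ)) u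
  have h2 := dadd (hasDerivAt_const (0 : ℝ) x) h
  rw [zero_add, one_smul] at h2
  exact h2

theorem hd_c (x u : A) : HasDerivAt (fun t : ℝ => (x + t • u).1) u.1 0 :=
  (ContinuousLinearMap.fst ℝ ℂ (ℂ × ℂ × ℝ)).hasFDerivAt.comp_hasDerivAt (0 : ℝ) (hd_line x u)

theorem hd_z1 (x u : A) : HasDerivAt (fun t : ℝ => (x + t • u).2.1) u.2.1 0 :=
  ((ContinuousLinearMap.fst ℝ ℂ (ℂ × ℝ)).comp
    (ContinuousLinearMap.snd ℝ ℂ (ℂ × ℂ × ℝ))).hasFDerivAt.comp_hasDerivAt (0 : ℝ) (hd_line x u)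

theorem hd_z2 (x u : A) : HasDerivAt (fun t : ℝ => (x + t • u).2.2.1) u.2.2.1 0 :=
  ((ContinuousLinearMap.fst ℝ ℂ ℝ).comp ((ContinuousLinearMap.snd ℝ ℂ (ℂ × ℝ)).comp
    (ContinuousLinearMap.snd ℝ ℂ (ℂ × ℂ × ℝ)))).hasFDerivAt.comp_hasDerivAt (0 : ℝ) (hd_line x u)

theorem hd_s (x u : A) : HasDerivAt (fun t : ℝ => (x + t • u).2.2.2) u.2.2.2 0 :=
  ((ContinuousLinearMap.snd ℝ ℂ ℝ).comp ((ContinuousLinearMap.snd ℝ ℂ (ℂ × ℝ)).comp
    (ContinuousLinearMap.snd ℝ ℂ (ℂ × ℂ × ℝ)))).hasFDerivAt.comp_hasDerivAt (0 : ℝ) (hd_line x u)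

theorem hd_z1sq (x u : A) : HasDerivAt (fun t : ℝ => (x + t • u).2.1 ^ 2)
    (2 * x.2.1 * u.2.1) 0 := by
  have h := dmul (hd_z1 x u) (hd_z1 x u)
  simp only [zero_smul, add_zero] at h
  simp only [pow_two]
  refine HasDerivAt.congr_deriv h ?_
  ring

theorem hd_z2sq (x u : A) : HasDerivAt (fun t : ℝ => (x + t • u).2.2.1 ^ 2)
    (2 * x.2.2.1 * u.2.2.1) 0 := by
  have h := dmul (hd_z2 x u) (hd_z2 x u)
  simp only [zero_smul, add_zero] at h
  simp only [pow_two]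
  refine HasDerivAt.congr_deriv h ?_
  ring

theorem hd_z2cu (x u : A) : HasDerivAt (fun t : ℝ => (x + t • u).2.2.1 ^ 3)
    (3 * x.2.2.1 ^ 2 * u.2.2.1) 0 := by
  have h := dmul (hd_z2sq x u) (hd_z2 x u)
  simp only [zero_smul, add_zero] at h
  have e : (fun t : ℝ => (x + t • u).2.2.1 ^ 3) =
      fun t : ℝ => (x + t • u).2.2.1 ^ 2 * (x + t • u).2.2.1 := by
    funext t
    ring
  rw [e]
  refine HasDerivAt.congr_deriv h ?_
  ring

theorem hd_f (x u : A) : HasDerivAt (fun t : ℝ => fW (x + t • u)) (dfW x u) 0 :=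
  dadd (hd_z1sq x u) (hd_z2cu x u)

theorem hd_d (x u : A) : HasDerivAt (fun t : ℝ => dW (x + t • u)) (ddW x u) 0 :=
  dsub (hd_z1sq x u) (hd_z2cu x u)

/-- second derivative of `f` -/
def d2f (x u v : A) : ℂ := 2 * u.2.1 * v.2.1 + 6 * x.2.2.1 * u.2.2.1 * v.2.2.1
/-- second derivative of `D` -/
def d2d (x u v : A) : ℂ := 2 * u.2.1 * v.2.1 - 6 * x.2.2.1 * u.2.2.1 * v.2.2.1
/-- derivative of `Θ` -/
def dTh (u v : A) : ℂ := 2 * u.2.2.1 * v.2.1 - 3 * u.2.1 * v.2.2.1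

theorem d2f_comm (x u v : A) : d2f x u v = d2f x v u := by
  simp only [d2f]
  ring

theorem d2d_comm (x u v : A) : d2d x u v = d2d x v u := by
  simp only [d2d]
  ring

theorem hd_df (x u v : A) : HasDerivAt (fun t : ℝ => dfW (x + t • u) v) (d2f x u v) 0 := by
  refine HasDerivAt.congr_deriv (dadd (dmc (dcm 2 (hd_z1 x u)) v.2.1)
    (dmc (dcm 3 (hd_z2sq x u)) v.2.2.1)) ?_
  simp only [d2f]
  ring

theorem hd_dd (x u v : A) : HasDerivAt (fun t : ℝ => ddW (x + t • u) v) (d2d x u v) 0 := by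
  refine HasDerivAt.congr_deriv (dsub (dmc (dcm 2 (hd_z1 x u)) v.2.1)
    (dmc (dcm 3 (hd_z2sq x u)) v.2.2.1)) ?_
  simp only [d2d]
  ring

theorem hd_Th (x u v : A) : HasDerivAt (fun t : ℝ => ThW (x + t • u) v) (dTh u v) 0 :=
  dsub (dmc (dcm 2 (hd_z2 x u)) v.2.1) (dmc (dcm 3 (hd_z1 x u)) v.2.2.1)

theorem hd_conj {g : ℝ → ℂ} {g' : ℂ} {t : ℝ} (h : HasDerivAt g g' t) :
    HasDerivAt (fun t => conj (g t)) (conj g') t := HasDerivAt.star h

theorem hd_re {g : ℝ → ℂ} {g' : ℂ} {t : ℝ} (h : HasDerivAt g g' t) :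
    HasDerivAt (fun t => (g t).re) g'.re t := Complex.reCLM.hasFDerivAt.comp_hasDerivAt t h

theorem hd_im {g : ℝ → ℂ} {g' : ℂ} {t : ℝ} (h : HasDerivAt g g' t) :
    HasDerivAt (fun t => (g t).im) g'.im t := Complex.imCLM.hasFDerivAt.comp_hasDerivAt t h

theorem hd_normSq {g : ℝ → ℂ} {g' : ℂ} (h : HasDerivAt g g' 0) :
    HasDerivAt (fun t => Complex.normSq (g t)) (2 * (conj (g 0) * g').re) 0 := by
  have h1 : (fun t => Complex.normSq (g t)) = fun t => (g t).re * (g t).re + (g t).im * (g t).im := by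
    funext t
    rw [Complex.normSq_apply]
  rw [h1]
  refine HasDerivAt.congr_deriv (dadd (dmul (hd_re h) (hd_re h)) (dmul (hd_im h) (hd_im h))) ?_
  simp only [Complex.mul_re, Complex.conj_re, Complex.conj_im]
  ring

/-- derivative of `α` -/
def dal (u v : A) : ℝ := (conj u.1 * v.1).im
/-- derivative of `θ` -/
def dth (x u v : A) : ℝ := (conj (dfW x u) * dfW x v + conj (fW x) * d2f x u v).im
/-- derivative of `δ` -/
def dde (x u v : A) : ℝ :=
  (2 * (conj (fW x) * dfW x u).re * (conj (dW x) * ddW x v).im +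
    Complex.normSq (fW x) * (conj (ddW x u) * ddW x v + conj (dW x) * d2d x u v).im) -
  (2 * (conj (dW x) * ddW x u).re * (conj (fW x) * dfW x v).im +
    Complex.normSq (dW x) * (conj (dfW x u) * dfW x v + conj (fW x) * d2f x u v).im)

theorem hd_al (x u v : A) : HasDerivAt (fun t : ℝ => alW (x + t • u) v) (dal u v) 0 :=
  hd_im (dmc (hd_conj (hd_c x u)) v.1)

theorem hd_th (x u v : A) : HasDerivAt (fun t : ℝ => thW (x + t • u) v) (dth x u v) 0 := by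
  refine HasDerivAt.congr_deriv (hd_im (dmul (hd_conj (hd_f x u)) (hd_df x u v))) ?_
  simp only [zero_smul, add_zero, dth]

theorem hd_de (x u v : A) : HasDerivAt (fun t : ℝ => deW (x + t • u) v) (dde x u v) 0 := by
  refine HasDerivAt.congr_deriv (dsub
    (dmul (hd_normSq (hd_f x u)) (hd_im (dmul (hd_conj (hd_d x u)) (hd_dd x u v))))
    (dmul (hd_normSq (hd_d x u)) (hd_im (dmul (hd_conj (hd_f x u)) (hd_df x u v))))) ?_
  simp only [zero_smul, add_zero, dde]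

/-- derivative of the `w`-part of the form -/
noncomputable def dom (x u v w : A) : ℝ :=
  ((dal u v * thW x w + alW x v * dth x u w) - (dth x u v * alW x w + thW x v * dal u w)) +
    (u.2.2.2 / 36 * ((ThW x v).re * (ThW x w).im - (ThW x v).im * (ThW x w).re) +
      x.2.2.2 / 36 * (((dTh u v).re * (ThW x w).im + (ThW x v).re * (dTh u w).im) -
        ((dTh u v).im * (ThW x w).re + (ThW x v).im * (dTh u w).re))) -
    (v.2.2.2 * dde x u w - dde x u v * w.2.2.2)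

theorem hd_om (x u v w : A) : HasDerivAt (fun t : ℝ => omW (x + t • u) v w) (dom x u v w) 0 := by
  have h1 : HasDerivAt (fun t : ℝ => (x + t • u).2.2.2 / 36) (u.2.2.2 / 36) 0 :=
    HasDerivAt.div_const (hd_s x u) 36
  have h2 := dsub (dmul (hd_al x u v) (hd_th x u w)) (dmul (hd_th x u v) (hd_al x u w))
  have h3 := dsub (dmul (hd_re (hd_Th x u v)) (hd_im (hd_Th x u w)))
    (dmul (hd_im (hd_Th x u v)) (hd_re (hd_Th x u w)))
  have h4 := dsub (dcm v.2.2.2 (hd_de x u w)) (dmc (hd_de x u v) w.2.2.2)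
  refine HasDerivAt.congr_deriv (dsub (dadd h2 (dmul h1 h3)) h4) ?_
  simp only [zero_smul, add_zero, dom]

end Lines

/-! ### Closedness -/

section Closed

theorem cyc_identity (P Q : A → A → ℝ) (p q : A → ℝ) (u v w : A) :
    ((P u v * q w + p v * Q u w) - (Q u v * p w + q v * P u w)) +
    ((P v w * q u + p w * Q v u) - (Q v w * p u + q w * P v u)) +
    ((P w u * q v + p u * Q w v) - (Q w u * p v + q u * P w v)) =
    ((P u v - P v u) * q w + (P v w - P w v) * q u + (P w u - P u w) * q v) -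
    ((Q u v - Q v u) * p w + (Q v w - Q w v) * p u + (Q w u - Q u w) * p v) := by
  ring

theorem dal_TW (x : A) (p l : ℝ) (μ : ℂ) (t : ℝ) (p' l' : ℝ) (μ' : ℂ) (t' : ℝ) :
    dal (TW x p l μ t) (TW x p' l' μ' t') = 0 := by
  rw [TW_eq, TW_eq, dal]
  simp only [Complex.mul_re, Complex.mul_im, Complex.conj_re, Complex.conj_im, Complex.ofReal_re,
    Complex.ofReal_im, Complex.I_re, Complex.I_im]
  ring

theorem dth_TW (x : A) (p l : ℝ) (μ : ℂ) (t : ℝ) (p' l' : ℝ) (μ' : ℂ) (t' : ℝ) :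
    dth x (TW x p l μ t) (TW x p' l' μ' t') - dth x (TW x p' l' μ' t') (TW x p l μ t) = 0 := by
  rw [dth, dth, d2f_comm x (TW x p' l' μ' t') (TW x p l μ t), dfW_TW, dfW_TW]
  simp only [Complex.add_im, Complex.mul_re, Complex.mul_im, Complex.conj_re, Complex.conj_im,
    Complex.ofReal_re, Complex.ofReal_im, Complex.I_re, Complex.I_im, Complex.re_ofNat,
    Complex.im_ofNat]
  ring

theorem dTh_TW (x : A) (p l : ℝ) (μ : ℂ) (t : ℝ) (p' l' : ℝ) (μ' : ℂ) (t' : ℝ) :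
    dTh (TW x p l μ t) (TW x p' l' μ' t') - dTh (TW x p' l' μ' t') (TW x p l μ t) =
      30 * Complex.I * fW x * (l * μ' - l' * μ) := by
  rw [TW_eq, TW_eq, dTh, dTh, fW]
  linear_combination (0 : ℂ) * Complex.I_sq

theorem dde_TW (x : A) (p l : ℝ) (μ : ℂ) (t : ℝ) (p' l' : ℝ) (μ' : ℂ) (t' : ℝ) :
    dde x (TW x p l μ t) (TW x p' l' μ' t') - dde x (TW x p' l' μ' t') (TW x p l μ t) =
      2 * Complex.normSq (fW x) * Complex.normSq (12 * x.2.1 * x.2.2.1 ^ 2) *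
        (μ.re * μ'.im - μ.im * μ'.re) := by
  rw [dde, dde, d2f_comm x (TW x p' l' μ' t') (TW x p l μ t),
    d2d_comm x (TW x p' l' μ' t') (TW x p l μ t), dfW_TW, dfW_TW, ddW_TW, ddW_TW]
  generalize d2f x (TW x p l μ t) (TW x p' l' μ' t') = X
  generalize d2d x (TW x p l μ t) (TW x p' l' μ' t') = Y
  generalize 12 * x.2.1 * x.2.2.1 ^ 2 = k
  generalize fW x = f
  generalize dW x = d
  simp only [Complex.add_im, Complex.add_re, Complex.mul_re, Complex.mul_im, Complex.conj_re,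
    Complex.conj_im, Complex.ofReal_re, Complex.ofReal_im, Complex.I_re, Complex.I_im,
    Complex.re_ofNat, Complex.im_ofNat, Complex.normSq_apply]
  ring

/-- the determinant of three fibre vectors -/
def det3 (μ₁ : ℂ) (t₁ : ℝ) (μ₂ : ℂ) (t₂ : ℝ) (μ₃ : ℂ) (t₃ : ℝ) : ℝ :=
  t₁ * (μ₂.re * μ₃.im - μ₂.im * μ₃.re) + t₂ * (μ₃.re * μ₁.im - μ₃.im * μ₁.re) +
    t₃ * (μ₁.re * μ₂.im - μ₁.im * μ₂.re)

theorem det3_eq_zero {m : ℂ} {s : ℝ} (h : Complex.normSq m + s ^ 2 ≠ 0)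
    {μ₁ : ℂ} {t₁ : ℝ} {μ₂ : ℂ} {t₂ : ℝ} {μ₃ : ℂ} {t₃ : ℝ} (h1 : (m * μ₁).re + s * t₁ = 0)
    (h2 : (m * μ₂).re + s * t₂ = 0) (h3 : (m * μ₃).re + s * t₃ = 0) :
    det3 μ₁ t₁ μ₂ t₂ μ₃ t₃ = 0 := by
  rw [Complex.mul_re] at h1 h2 h3
  rw [Complex.normSq_apply] at h
  have e : (m.re * m.re + m.im * m.im + s ^ 2) * det3 μ₁ t₁ μ₂ t₂ μ₃ t₃ = 0 := by
    rw [det3]
    linear_combination
      (m.re * (μ₂.im * t₃ - t₂ * μ₃.im) - m.im * (t₂ * μ₃.re - μ₂.re * t₃) +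
        s * (μ₂.re * μ₃.im - μ₂.im * μ₃.re)) * h1 +
      (m.re * (μ₃.im * t₁ - t₃ * μ₁.im) - m.im * (t₃ * μ₁.re - μ₃.re * t₁) +
        s * (μ₃.re * μ₁.im - μ₃.im * μ₁.re)) * h2 +
      (m.re * (μ₁.im * t₂ - t₁ * μ₂.im) - m.im * (t₁ * μ₂.re - μ₁.re * t₂) +
        s * (μ₁.re * μ₂.im - μ₁.im * μ₂.re)) * h3
  exact (mul_eq_zero.1 e).resolve_left h

theorem dom_cyc {x u v w : A} (hx : x ∈ Dom) (hu : TanW x u) (hv : TanW x v) (hw : TanW x w) :
    dom x u v w + dom x v w u + dom x w u v = 0 := by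
  obtain ⟨p₁, l₁, μ₁, eu⟩ := hu.exists_TW hx
  obtain ⟨p₂, l₂, μ₂, ev⟩ := hv.exists_TW hx
  obtain ⟨p₃, l₃, μ₃, ew⟩ := hw.exists_TW hx
  generalize u.2.2.2 = t₁ at eu
  generalize v.2.2.2 = t₂ at ev
  generalize w.2.2.2 = t₃ at ew
  subst eu ev ew
  rw [tanW_TW_iff] at hu hv hw
  have hdet := det3_eq_zero hx.2.2 hu hv hw
  have a12 := dal_TW x p₁ l₁ μ₁ t₁ p₂ l₂ μ₂ t₂
  have a21 := dal_TW x p₂ l₂ μ₂ t₂ p₁ l₁ μ₁ t₁
  have a23 := dal_TW x p₂ l₂ μ₂ t₂ p₃ l₃ μ₃ t₃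
  have a32 := dal_TW x p₃ l₃ μ₃ t₃ p₂ l₂ μ₂ t₂
  have a31 := dal_TW x p₃ l₃ μ₃ t₃ p₁ l₁ μ₁ t₁
  have a13 := dal_TW x p₁ l₁ μ₁ t₁ p₃ l₃ μ₃ t₃
  have b12 := dth_TW x p₁ l₁ μ₁ t₁ p₂ l₂ μ₂ t₂
  have b23 := dth_TW x p₂ l₂ μ₂ t₂ p₃ l₃ μ₃ t₃
  have b31 := dth_TW x p₃ l₃ μ₃ t₃ p₁ l₁ μ₁ t₁
  have c12 := dTh_TW x p₁ l₁ μ₁ t₁ p₂ l₂ μ₂ t₂
  have c23 := dTh_TW x p₂ l₂ μ₂ t₂ p₃ l₃ μ₃ t₃
  have c31 := dTh_TW x p₃ l₃ μ₃ t₃ p₁ l₁ μ₁ t₁
  have d12 := dde_TW x p₁ l₁ μ₁ t₁ p₂ l₂ μ₂ t₂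
  have d23 := dde_TW x p₂ l₂ μ₂ t₂ p₃ l₃ μ₃ t₃
  have d31 := dde_TW x p₃ l₃ μ₃ t₃ p₁ l₁ μ₁ t₁
  simp only [dom, alW_TW, thW_TW, ThW_TW, TW_s, a12, a21, a23, a32, a31, a13]
  have c12r := congrArg Complex.re c12
  have c12i := congrArg Complex.im c12
  have c23r := congrArg Complex.re c23
  have c23i := congrArg Complex.im c23
  have c31r := congrArg Complex.re c31
  have c31i := congrArg Complex.im c31
  rw [det3] at hdet
  simp only [Complex.sub_re, Complex.sub_im, Complex.mul_re, Complex.mul_im, Complex.ofReal_re,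
    Complex.ofReal_im, Complex.I_re, Complex.I_im, Complex.re_ofNat, Complex.im_ofNat]
    at c12r c12i c23r c23i c31r c31i ⊢
  rw [Complex.normSq_apply (fW x)] at *
  generalize Complex.normSq (12 * x.2.1 * x.2.2.1 ^ 2) = K at *
  generalize Complex.normSq x.1 = C at *
  generalize x.2.2.2 = s at *
  generalize TW x p₁ l₁ μ₁ t₁ = U at *
  generalize TW x p₂ l₂ μ₂ t₂ = V at *
  generalize TW x p₃ l₃ μ₃ t₃ = W at *
  generalize (fW x).re = f1 at *
  generalize (fW x).im = f2 at *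
  linear_combination (-(C * p₃)) * b12 + (-(C * p₁)) * b23 + (-(C * p₂)) * b31 +
    t₃ * d12 + t₁ * d23 + t₂ * d31 +
    (s / 36) * (c12r * (6 * f1 * μ₃.im + 6 * f2 * μ₃.re) - c12i * (6 * f1 * μ₃.re - 6 * f2 * μ₃.im) +
      c23r * (6 * f1 * μ₁.im + 6 * f2 * μ₁.re) - c23i * (6 * f1 * μ₁.re - 6 * f2 * μ₁.im) +
      c31r * (6 * f1 * μ₂.im + 6 * f2 * μ₂.re) - c31i * (6 * f1 * μ₂.re - 6 * f2 * μ₂.im)) +
    (f1 * f1 + f2 * f2) * (1 + 2 * K) * hdet

end Closed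

end Vale.Agent.P265.Dis
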